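import Crest.Agent.N250.MP.Avoid
import Crest.Agent.N250.Re.Pt
import Crest.Agent.N250.Tb.T2
import Crest.Agent.N250.Tb.J
import Crest.Agent.N250.T.Reach

-- ▼ part N250/R/Bar
section

/-!
# Row 250, block R (helper59): barriers on annuli of a slice (S5, S6 of the one-time scheme)
-/

set_option autoImplicit false
open MeasureTheory Set Filter Topology
open scoped ContDiff InnerProductSpace
open Crest.GeometryTopology.MCF

noncomputable section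

namespace Crest.Agent.N250.Bar

open MP

variable {F : Mv} {p : ST}

/-- `|x|²` -/
def sq (q : ST) : ℝ := ‖q.1‖ ^ 2

theorem cd_sq : ContDiff ℝ ∞ sq := contDiff_fst.norm_sq ℝ

/-- the inner product of the space parts -/
def Bi : ST →L[ℝ] ST →L[ℝ] ℝ :=
  (innerSL ℝ (E := E)).bilinearComp (ContinuousLinearMap.fst ℝ E ℝ) (ContinuousLinearMap.fst ℝ E ℝ)

theorem fd_sq : fderiv ℝ sq = fun q => ((2 : ℝ) • Bi) q := funext fun q => by
  have := (hasFDerivAt_fst (𝕜 := ℝ) (p := q)).norm_sq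
  refine (this.congr_fderiv (ContinuousLinearMap.ext fun v => ?_)).fderiv
  simp [Bi]

theorem fd_sq_apply (q : ST) (v : E) (s : ℝ) : fderiv ℝ sq q (v, s) = 2 * ⟪q.1, v⟫_ℝ := by
  simp [fd_sq, Bi]

theorem isum (u v : E) : ⟪u, v⟫_ℝ = ∑ a, u a * v a := by
  simp only [PiLp.inner_apply, RCLike.inner_apply, conj_trivial, mul_comm]

theorem D_sq (hF : F.Reg) (hp : p ∈ F.M) (a : Fin 3) :
    F.D a sq p = 2 * (p.1 a - F.xn 0 p * F.n p a) := by
  rw [D_eq hF hp (cd_sq.differentiable (by simp) p) EventuallyEq.rfl, fd_sq_apply]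
  simp [Mv.PL, Mv.xn, inner_sub_right, inner_smul_right, EuclideanSpace.inner_single_right,
    mul_comm]

theorem drift_sq (hF : F.Reg) (hp : p ∈ F.M) :
    ∑ a, p.1 a * F.D a sq p = 2 * (‖p.1‖ ^ 2 - F.xn 0 p ^ 2) := by
  have h1 : ‖p.1‖ ^ 2 = ∑ a, p.1 a * p.1 a := by rw [← real_inner_self_eq_norm_sq, isum]
  have h2 : F.xn 0 p = ∑ a, p.1 a * F.n p a := by rw [Mv.xn, sub_zero, isum]
  simp only [D_sq hF hp, h1, Fin.sum_univ_three] at h2 ⊢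
  linear_combination (2 * F.xn 0 p) * h2

theorem gam_sq (hF : F.Reg) (hp : p ∈ F.M) :
    ∑ a, F.D a sq p * F.D a sq p = 4 * (‖p.1‖ ^ 2 - F.xn 0 p ^ 2) := by
  have h1 : ‖p.1‖ ^ 2 = ∑ a, p.1 a * p.1 a := by rw [← real_inner_self_eq_norm_sq, isum]
  have h2 : F.xn 0 p = ∑ a, p.1 a * F.n p a := by rw [Mv.xn, sub_zero, isum]
  have h3 := inner_nn hF hp
  rw [isum] at h3
  simp only [D_sq hF hp, h1, Fin.sum_univ_three] at h2 h3 ⊢
  linear_combination (8 * F.xn 0 p) * h2 + (4 * F.xn 0 p ^ 2) * h3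

theorem lap_sq (hF : F.Reg) (hp : p ∈ F.M) : F.lap sq p = 4 - 2 * (F.H p * F.xn 0 p) := by
  rw [lap_amb hF hp (cd_sq.of_le (by norm_cast)).contDiffAt EventuallyEq.rfl, fd_sq_apply, fd_sq,
    ContinuousLinearMap.fderiv]
  have e : ∀ v : E, ((2 : ℝ) • Bi) ((v, 0) : ST) ((v, 0) : ST) = 2 * ⟪v, v⟫_ℝ := fun v => by
    simp [Bi]
  simp only [e, ← Finset.mul_sum, sum_PL_sq hF hp, Mv.xn, sub_zero]
  ring

/-- linearity for functions that are only `C²` at the point -/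
theorem lin (hF : F.Reg) (hp : p ∈ F.M) {v W : ST → ℝ} (hv : ContDiffWithinAt ℝ 2 v F.M p)
    (hW : ContDiffAt ℝ 2 W p) (σ : ℝ) :
    (∀ a, F.D a (fun q => σ * v q - W q) p = σ * F.D a v p - F.D a W p) ∧
      F.lap (fun q => σ * v q - W q) p = σ * F.lap v p - F.lap W p := by
  obtain ⟨g, hg, he⟩ := exists_ext hF hp (m := 2) hv
  have hg' : ContDiffAt ℝ 2 g p := hg
  have h1 : ContDiffAt ℝ 2 (fun q => σ * g q - W q) p := (contDiffAt_const.mul hg').sub hW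
  have h2 : (fun q => σ * v q - W q) =ᶠ[𝓝[F.M] p] fun q => σ * g q - W q :=
    he.mono fun q hq => by simp only [hq]
  have h3 : fderiv ℝ (fun q => σ * g q - W q) =ᶠ[𝓝 p] fun q => σ • fderiv ℝ g q - fderiv ℝ W q := by
    filter_upwards [hg'.eventually (by simp), hW.eventually (by simp)] with q a b
    exact (((a.differentiableAt (by simp)).hasFDerivAt.const_mul σ).sub
      (b.differentiableAt (by simp)).hasFDerivAt).fderiv
  have h4 : fderiv ℝ (fderiv ℝ fun q => σ * g q - W q) p =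
      σ • fderiv ℝ (fderiv ℝ g) p - fderiv ℝ (fderiv ℝ W) p := by
    rw [h3.fderiv_eq]
    exact (((((hg'.fderiv_right (m := 1) (by norm_num)).differentiableAt
      (by simp)).hasFDerivAt).const_smul σ).sub
      ((hW.fderiv_right (m := 1) (by norm_num)).differentiableAt (by simp)).hasFDerivAt).fderiv
  refine ⟨fun a => ?_, ?_⟩
  · rw [D_eq hF hp (h1.differentiableAt (by simp)) h2, D_eq hF hp (hg'.differentiableAt (by simp)) he,
      D_eq hF hp (hW.differentiableAt (by simp)) EventuallyEq.rfl, h3.self_of_nhds]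
    simp
  · rw [lap_amb hF hp h1 h2, lap_amb hF hp hg' he, lap_amb hF hp hW EventuallyEq.rfl,
      h3.self_of_nhds, h4]
    simp only [sub_apply, smul_apply, smul_eq_mul,
      Finset.sum_sub_distrib, ← Finset.mul_sum]
    ring

theorem num {K γ g τ : ℝ} (hK : 0 ≤ K) (hγ : 0 < γ) (h1 : γ ≤ g) (h2 : g ≤ 1 / 5)
    (hτ : 5 * (2 * K + 4 + 2 * K ^ 2 + (K + 1) / γ) ≤ τ) :
    g * (4 + 2 * K ^ 2) + 4 * g ^ 2 * τ ^ 2 - g * τ ^ 2 + (K + 1) + 2 * K * g * τ ≤ 0 := by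
  have hg : 0 < g := hγ.trans_le h1
  have h3 : K + 1 ≤ g * ((K + 1) / γ) := by
    rw [mul_div_assoc', le_div_iff₀ hγ]; nlinarith
  have h4 : 0 ≤ (K + 1) / γ := by positivity
  have h5 : 1 ≤ τ := by nlinarith [sq_nonneg K]
  have h6 : g * τ * (2 * K + 4 + 2 * K ^ 2 + (K + 1) / γ) ≤ g * τ * (τ / 5) :=
    mul_le_mul_of_nonneg_left (by linarith) (by positivity)
  have h7 : g * (4 + 2 * K ^ 2) + (K + 1) ≤ τ * (g * (4 + 2 * K ^ 2) + g * ((K + 1) / γ)) := by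
    have : 0 ≤ g * (4 + 2 * K ^ 2) + g * ((K + 1) / γ) := by positivity
    nlinarith
  have h8 : 4 * g ^ 2 * τ ^ 2 ≤ 4 / 5 * (g * τ ^ 2) := by
    have : 0 ≤ g * τ ^ 2 := by positivity
    nlinarith
  nlinarith

/-- the barrier is a strict supersolution -/
theorem super (hF : F.Reg) (hp : p ∈ F.M) {K γ A B : ℝ} (hK : 0 ≤ K) (hγ : 0 < γ) (hγ' : γ ≤ 1 / 5)
    (hA : 0 ≤ A) (hB : 0 ≤ B) (hx : 5 * (2 * K + 4 + 2 * K ^ 2 + (K + 1) / γ) + K ≤ ‖p.1‖)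
    (hH : |F.H p| ≤ K) (hn : |F.xn 0 p| ≤ K) (W : ST → ℝ)
    (hW : W = fun q => A * Real.exp (γ * sq q) + B * Real.exp (1 / 5 * sq q)) :
    F.lap W p - (∑ a, p.1 a * F.D a W p) / 2 + (K + 1) * W p + K * √(F.gam W W p) ≤ 0 := by
  let ψ : ℝ → ℝ := fun s => A * Real.exp (γ * s) + B * Real.exp (1 / 5 * s)
  have d1 : ∀ (A B s : ℝ), HasDerivAt (fun s => A * Real.exp (γ * s) + B * Real.exp (1 / 5 * s))
      (A * γ * Real.exp (γ * s) + B / 5 * Real.exp (1 / 5 * s)) s := fun A B s => by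
    have := ((((hasDerivAt_id s).const_mul γ).exp).const_mul A).add
      ((((hasDerivAt_id s).const_mul (1 / 5)).exp).const_mul B)
    refine (this.congr_deriv ?_)
    simp only [id]; ring
  have d2 : deriv ψ = fun s => A * γ * Real.exp (γ * s) + B / 5 * Real.exp (1 / 5 * s) :=
    funext fun s => (d1 A B s).deriv
  have hs : F.Sm sq := cd_sq.contDiffOn
  have e1 : ∀ a, F.D a W p = deriv ψ (sq p) * F.D a sq p := fun a => by
    rw [hW, d2]; exact hF.D_comp hp (ψ := ψ) hs (d1 A B _) a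
  have e2 : F.lap W p = deriv ψ (sq p) * F.lap sq p + deriv (deriv ψ) (sq p) * F.gam sq sq p := by
    rw [hW]; exact hF.lap_comp hp (ψ := ψ) hs (by simp only [ψ]; fun_prop)
  set T := 5 * (2 * K + 4 + 2 * K ^ 2 + (K + 1) / γ) with hT
  have hT0 : 0 ≤ T := by positivity
  have h0 : T ^ 2 ≤ ‖p.1‖ ^ 2 - F.xn 0 p ^ 2 := by
    have := sq_le_sq' (neg_le_of_abs_le hn) (le_of_abs_le hn)
    nlinarith [mul_nonneg hT0 hK]
  obtain ⟨τ, hτ, hτ2⟩ : ∃ τ, T ≤ τ ∧ ‖p.1‖ ^ 2 - F.xn 0 p ^ 2 = τ ^ 2 :=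
    ⟨√(‖p.1‖ ^ 2 - F.xn 0 p ^ 2), Real.le_sqrt_of_sq_le h0,
      (Real.sq_sqrt ((sq_nonneg T).trans h0)).symm⟩
  set u := A * Real.exp (γ * sq p)
  set w := B * Real.exp (1 / 5 * sq p)
  have hu : 0 ≤ u := by positivity
  have hw : 0 ≤ w := by positivity
  have e3 : deriv ψ (sq p) = γ * u + 1 / 5 * w := by rw [d2]; simp only [u, w]; ring
  have e4 : deriv (deriv ψ) (sq p) = γ ^ 2 * u + (1 / 5) ^ 2 * w := by
    rw [d2, (d1 _ _ _).deriv]; simp only [u, w]; ring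
  have e5 : √(F.gam W W p) = (γ * u + 1 / 5 * w) * (2 * τ) := by
    rw [Real.sqrt_eq_iff_mul_self_eq (Mv.gam_self_nonneg _ _) (by have := hT0.trans hτ; positivity),
      Mv.gam_apply]
    have := gam_sq hF hp
    simp only [e1, e3, Fin.sum_univ_three] at this ⊢
    linear_combination (γ * u + 1 / 5 * w) ^ 2 * (this + 4 * hτ2)
  have e6 : ∑ a, p.1 a * F.D a W p = (γ * u + 1 / 5 * w) * (2 * τ ^ 2) := by
    rw [← hτ2, ← drift_sq hF hp, Finset.mul_sum]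
    exact Finset.sum_congr rfl fun a _ => by rw [e1, e3]; ring
  have e7 : W p = u + w := by rw [hW]
  have e8 : -(F.H p * F.xn 0 p) ≤ K ^ 2 := by
    have := abs_mul (F.H p) (F.xn 0 p) ▸ neg_abs_le (F.H p * F.xn 0 p)
    nlinarith [mul_le_mul hH hn (abs_nonneg _) hK]
  rw [e2, e3, e4, e5, e6, e7, lap_sq hF hp, Mv.gam_apply, gam_sq hF hp, hτ2]
  have n1 := mul_le_mul_of_nonneg_left (num hK hγ le_rfl hγ' hτ) hu
  have n2 := mul_le_mul_of_nonneg_left (num hK hγ hγ' le_rfl hτ) hw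
  have n3 := mul_le_mul_of_nonneg_left e8 (show 0 ≤ γ * u + 1 / 5 * w by positivity)
  nlinarith

/-- the closed annulus of a slice -/
def An (F : Mv) (t r₁ r₂ : ℝ) : Set E := {x | x ∈ F.sl t ∧ r₁ ≤ ‖x‖ ∧ ‖x‖ ≤ r₂}

theorem locMax {t r₁ r₂ : ℝ} {x : E} {u : ST → ℝ} (h1 : r₁ < ‖x‖)
    (hm : ∀ y ∈ An F t r₁ r₂, u (y, t) ≤ u (x, t)) :
    IsLocalMaxOn u (F.M ∩ {q | q.2 = t} ∩ {q | ‖q.1‖ ≤ r₂}) (x, t) := by
  have : ∀ᶠ q : ST in 𝓝 (x, t), r₁ < ‖q.1‖ :=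
    continuous_fst.norm.continuousAt.eventually (lt_mem_nhds h1)
  filter_upwards [nhdsWithin_le_nhds this, self_mem_nhdsWithin] with q a b
  obtain ⟨y, s⟩ := q
  obtain ⟨⟨b1, rfl⟩, b3⟩ := b
  exact hm y ⟨b1, a.le, b3⟩

theorem contOn {t : ℝ} {A : Set E} {v : ST → ℝ} (hA : A ⊆ F.sl t)
    (hv : ∀ x ∈ A, ContinuousWithinAt v F.M (x, t)) : ContinuousOn (fun x => v (x, t)) A :=
  fun x hx => ContinuousWithinAt.comp (f := fun x : E => ((x, t) : ST)) (hv x hx)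
    (by fun_prop : Continuous fun x : E => ((x, t) : ST)).continuousWithinAt fun _ hy => hA hy

/-- the barrier -/
def bar (γ A B : ℝ) (q : ST) : ℝ := A * Real.exp (γ * sq q) + B * Real.exp (1 / 5 * sq q)

theorem bar_ge {γ A B : ℝ} (hγ : 0 < γ) (hA : 0 ≤ A) (hB : 0 ≤ B) (q : ST) : A ≤ bar γ A B q := by
  have h1 : 1 ≤ Real.exp (γ * sq q) := Real.one_le_exp (by unfold sq; positivity)
  have h2 : 0 ≤ B * Real.exp (1 / 5 * sq q) := by positivity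
  have := mul_le_mul_of_nonneg_left h1 hA
  unfold bar; linarith

theorem bar_cd (γ A B : ℝ) : ContDiff ℝ 2 (bar γ A B) := by
  have := cd_sq.of_le (m := 2) (by norm_cast)
  unfold bar; fun_prop

theorem bar_mul (γ A B l : ℝ) (q : ST) : bar γ (l * A) (l * B) q = l * bar γ A B q := by
  unfold bar; ring

/-- no interior contact with the barrier -/
theorem no_touch (hF : F.Reg) (hp : p ∈ F.M) {K γ A B e σ : ℝ} {v : ST → ℝ} (hK : 0 ≤ K)
    (hγ : 0 < γ) (hγ' : γ ≤ 1 / 5) (hA : 0 ≤ A) (hB : 0 ≤ B) (he : e < A) (hσ : σ * σ = 1)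
    (hx : 5 * (2 * K + 4 + 2 * K ^ 2 + (K + 1) / γ) + K ≤ ‖p.1‖)
    (hH : |F.H p| ≤ K) (hn : |F.xn 0 p| ≤ K) (hv : ContDiffWithinAt ℝ 2 v F.M p)
    (hL : |F.lap v p - (∑ i, p.1 i * F.D i v p) / 2| ≤ K * |v p| + K * √(F.gam v v p) + e)
    (h0 : σ * v p = bar γ A B p)
    (hm : IsLocalMaxOn (fun q => σ * v q - bar γ A B q) (F.M ∩ {q | q.2 = p.2}) p) : False := by
  have hσ1 : |σ| = 1 := by
    have := abs_mul_abs_self σ
    nlinarith [abs_nonneg σ]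
  have hσ' : ∀ y : ℝ, |σ * y| = |y| := fun y => by rw [abs_mul, hσ1, one_mul]
  have hu : ContDiffWithinAt ℝ 2 (fun q => σ * v q - bar γ A B q) F.M p :=
    (contDiffWithinAt_const.mul hv).sub (bar_cd γ A B).contDiffAt.contDiffWithinAt
  obtain ⟨l1, l2⟩ := lin hF hp hv (bar_cd γ A B).contDiffAt σ
  have m2 := (max_slice hF hp hu hm).1
  have m3 := max_lap hF hp hu hm
  have s := super hF hp hK hγ hγ' hA hB hx hH hn (bar γ A B) rfl
  have e1 : ∀ i, F.D i (bar γ A B) p = σ * F.D i v p := fun i => by linarith [l1 i, m2 i]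
  have e2 : F.gam (bar γ A B) (bar γ A B) p = F.gam v v p := by
    simp only [Mv.gam_apply, e1]
    exact Finset.sum_congr rfl fun i _ => by linear_combination (F.D i v p) ^ 2 * hσ
  have e3 : ∑ i, p.1 i * F.D i (bar γ A B) p = σ * ∑ i, p.1 i * F.D i v p := by
    rw [Finset.mul_sum]; exact Finset.sum_congr rfl fun i _ => by rw [e1]; ring
  have e5 := bar_ge hγ hA hB p
  have e4 : |v p| = bar γ A B p := by rw [← hσ', h0, abs_of_nonneg (hA.trans e5)]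
  rw [← hσ', e4] at hL
  rw [e2, e3] at s
  have := neg_le_of_abs_le hL
  linarith

/-- S5: the barrier estimate on an annulus -/
theorem s5 {K γ : ℝ} (hK : 0 ≤ K) (hγ : 0 < γ) (hγ' : γ ≤ 1 / 5) : ∃ R₁ : ℝ, 0 < R₁ ∧
    ∀ (F : Mv) (t R₀ r a b e : ℝ) (v : ST → ℝ), F.Reg → R₁ ≤ R₀ → 0 ≤ a → 0 ≤ b → 0 ≤ e →
      IsCompact (An F t R₀ r) → (∀ x ∈ An F t R₀ r, ContDiffWithinAt ℝ 2 v F.M (x, t)) →
      (∀ x ∈ F.sl t, R₀ < ‖x‖ → ‖x‖ < r → |F.H (x, t)| ≤ K ∧ |F.xn 0 (x, t)| ≤ K ∧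
        |F.lap v (x, t) - (∑ i, x i * F.D i v (x, t)) / 2| ≤
          K * |v (x, t)| + K * √(F.gam v v (x, t)) + e) →
      (∀ x ∈ F.sl t, ‖x‖ = R₀ → |v (x, t)| ≤ a) → (∀ x ∈ F.sl t, ‖x‖ = r → |v (x, t)| ≤ b) →
      ∀ x ∈ An F t R₀ r,
        |v (x, t)| ≤ (a + e) * Real.exp (γ * ‖x‖ ^ 2) + b * Real.exp ((‖x‖ ^ 2 - r ^ 2) / 5) := by
  refine ⟨5 * (2 * K + 4 + 2 * K ^ 2 + (K + 1) / γ) + K, by positivity, ?_⟩
  intro F t R₀ r a b e v hF hR ha hb he hc hv hL h0 h1 x₀ hx₀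
  refine le_of_forall_pos_le_add fun ε hε => ?_
  obtain ⟨A, hA⟩ : ∃ A, A = a + e + ε / Real.exp (γ * ‖x₀‖ ^ 2) := ⟨_, rfl⟩
  obtain ⟨B, hB⟩ : ∃ B, B = b * Real.exp (-r ^ 2 / 5) := ⟨_, rfl⟩
  have hA0 : a + e < A := hA ▸ lt_add_of_pos_right _ (by positivity)
  have hA1 : 0 < A := by linarith
  have hB0 : 0 ≤ B := by rw [hB]; positivity
  have hWA := bar_ge hγ hA1.le hB0
  have hW0 : ∀ q, 0 < bar γ A B q := fun q => hA1.trans_le (hWA q)
  have hBe : ∀ x : E, bar γ A B (x, t) =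
      A * Real.exp (γ * ‖x‖ ^ 2) + b * Real.exp ((‖x‖ ^ 2 - r ^ 2) / 5) := fun x => by
    rw [bar, hB, mul_assoc, ← Real.exp_add]; congr 3; simp only [sq]; ring
  suffices h : ∀ σ : ℝ, σ * σ = 1 → (∀ y, σ * y ≤ |y|) → σ * v (x₀, t) ≤ bar γ A B (x₀, t) by
    have e1 : bar γ A B (x₀, t) = (a + e) * Real.exp (γ * ‖x₀‖ ^ 2) +
        b * Real.exp ((‖x₀‖ ^ 2 - r ^ 2) / 5) + ε := by
      rw [hBe, hA, add_mul (a + e), div_mul_cancel₀ _ (Real.exp_pos _).ne']; ring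
    rw [← e1, abs_le]
    exact ⟨by linarith [h (-1) (by norm_num) fun y => by linarith [neg_abs_le y]],
      by linarith [h 1 (by norm_num) fun y => by linarith [le_abs_self y]]⟩
  intro σ hσ hσ'
  by_contra hcon
  push Not at hcon
  obtain ⟨x, hx, hm⟩ := hc.exists_isMaxOn ⟨x₀, hx₀⟩
    (f := fun y => σ * v (y, t) / bar γ A B (y, t))
    ((continuousOn_const.mul (contOn (fun _ h => h.1) fun y hy => (hv y hy).continuousWithinAt)).div
      ((bar_cd γ A B).continuous.comp (by fun_prop)).continuousOn fun y _ => (hW0 _).ne')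
  obtain ⟨l, hl⟩ : ∃ l, l = σ * v (x, t) / bar γ A B (x, t) := ⟨_, rfl⟩
  have hm' : ∀ y ∈ An F t R₀ r, σ * v (y, t) ≤ l * bar γ A B (y, t) := fun y hy =>
    (div_le_iff₀ (hW0 (y, t))).1 (hl ▸ hm hy)
  have hl1 : 1 < l := lt_of_mul_lt_mul_right (by linarith [hm' x₀ hx₀]) (hW0 (x₀, t)).le
  have hlx : σ * v (x, t) = l * bar γ A B (x, t) := by rw [hl, div_mul_cancel₀ _ (hW0 _).ne']
  have hlt : bar γ A B (x, t) < |v (x, t)| :=
    (lt_mul_of_one_lt_left (hW0 _) hl1).trans_le (hlx ▸ hσ' _)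
  have i1 : R₀ < ‖x‖ := hx.2.1.lt_of_ne fun h => by linarith [h0 x hx.1 h.symm, hWA (x, t)]
  have i2 : ‖x‖ < r := hx.2.2.lt_of_ne fun h => by
    have h2 := hBe x
    rw [h, sub_self, zero_div, Real.exp_zero, mul_one] at h2
    have : 0 < A * Real.exp (γ * r ^ 2) := by positivity
    linarith [h1 x hx.1 h]
  obtain ⟨k1, k2, k3⟩ := hL x hx.1 i1 i2
  refine no_touch (p := (x, t)) (A := l * A) (B := l * B) hF hx.1 hK hγ hγ' (by positivity)
    (by positivity) (by linarith [lt_mul_of_one_lt_left hA1 hl1]) hσ (hR.trans i1.le) k1 k2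
    (hv x hx) k3 (by rw [bar_mul, hlx]) ?_
  have m0 := locMax (F := F) (u := fun q => σ * v q - bar γ (l * A) (l * B) q) (r₂ := r) i1
    fun y hy => by simp only [bar_mul]; linarith [hm' y hy]
  have : ∀ᶠ q : ST in 𝓝 (x, t), ‖q.1‖ < r :=
    continuous_fst.norm.continuousAt.eventually (gt_mem_nhds i2)
  refine m0.filter_mono (le_of_eq ?_)
  exact (nhdsWithin_inter_of_mem' (mem_nhdsWithin_of_mem_nhds (this.mono fun _ h => h.le))).symm

/-- one-sided maximum: the derivative along `x^T` is nonnegative -/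
theorem max_drift (hF : F.Reg) (hp : p ∈ F.M) {u : ST → ℝ} (hu : ContDiffWithinAt ℝ 1 u F.M p)
    (hτ : F.xn 0 p ^ 2 < ‖p.1‖ ^ 2)
    (hm : IsLocalMaxOn u (F.M ∩ {q | q.2 = p.2} ∩ {q | ‖q.1‖ ≤ ‖p.1‖}) p) :
    0 ≤ ∑ a, p.1 a * F.D a u p := by
  obtain ⟨π, hπ⟩ := exists_ret hF hp
  set w : ST := (F.PL p p.1, 0) with hw
  have key : ∀ f : ST → ℝ, ContDiffWithinAt ℝ 1 f F.M p →
      HasDerivAt (fun s : ℝ => f (π (p + s • w))) (∑ a, p.1 a * F.D a f p) 0 := fun f hf => by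
    have hg : DifferentiableAt ℝ (f ∘ π) p := (hπ.comp_sm (m := 1) hf).differentiableAt (by simp)
    have hd : HasDerivAt (fun s : ℝ => (f ∘ π) (p + s • w)) (fderiv ℝ (f ∘ π) p w) 0 :=
      HasFDerivAt.comp_hasDerivAt 0 (f := fun s : ℝ => p + s • w)
        (by simpa using hg.hasFDerivAt) (line_deriv p w 0)
    rwa [← td_eq hF hp hg (hπ.comp_eq f) (tn_PL hF hp _), Mv.td_PL] at hd
  have d1 := key sq (cd_sq.of_le (by norm_cast)).contDiffAt.contDiffWithinAt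
  rw [drift_sq hF hp] at d1
  have d2 : ∀ᶠ s in 𝓝[<] (0 : ℝ), sq (π (p + s • w)) ≤ sq p := by
    have h1 := (hasDerivAt_iff_tendsto_slope_zero.1 d1).mono_left (nhdsLT_le_nhdsNE 0)
    filter_upwards [h1.eventually (lt_mem_nhds (show (0 : ℝ) < _ by linarith)),
      self_mem_nhdsWithin] with s a b
    simp only [zero_add, zero_smul, add_zero, hπ.fix, smul_eq_mul] at a
    have b' : s⁻¹ < 0 := inv_lt_zero.2 b
    nlinarith
  have t : Tendsto (fun s : ℝ => π (p + s • w)) (𝓝[<] 0)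
      (𝓝[F.M ∩ {q | q.2 = p.2} ∩ {q | ‖q.1‖ ≤ ‖p.1‖}] p) := by
    refine tendsto_nhdsWithin_iff.2
      ⟨((hπ.tendsto.mono_right nhdsWithin_le_nhds).comp (line_tendsto p _)).mono_left
        nhdsWithin_le_nhds, ?_⟩
    filter_upwards [nhdsWithin_le_nhds ((line_tendsto p w).eventually hπ.ev), d2] with s hs h2
    exact ⟨⟨hs.1, hs.2.1.trans (by simp [hw])⟩, (sq_le_sq₀ (norm_nonneg _) (norm_nonneg _)).1 h2⟩
  have h1 := (hasDerivAt_iff_tendsto_slope_zero.1 (key u hu)).mono_left (nhdsLT_le_nhdsNE 0)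
  refine ge_of_tendsto h1 ?_
  filter_upwards [t.eventually hm, self_mem_nhdsWithin] with s a b
  simp only [zero_add, zero_smul, add_zero, hπ.fix, smul_eq_mul]
  have b' : s⁻¹ < 0 := inv_lt_zero.2 b
  nlinarith

/-- S6: first order extension -/
theorem s6 (hF : F.Reg) {t r₁ r₂ K L a : ℝ} {u : ST → ℝ} (hL : 0 < L) (hK : 2 * K ≤ r₁)
    (hr : 0 < r₁) (hc : IsCompact (An F t r₁ r₂))
    (hu : ∀ x ∈ An F t r₁ r₂, ContDiffWithinAt ℝ 1 u F.M (x, t))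
    (hn : ∀ x ∈ An F t r₁ r₂, |F.xn 0 (x, t)| ≤ K ∧ ∑ i, x i * F.D i u (x, t) ≤ L)
    (h0 : ∀ x ∈ F.sl t, ‖x‖ = r₁ → u (x, t) ≤ a) :
    ∀ x ∈ An F t r₁ r₂, u (x, t) ≤ a + L * (r₂ ^ 2 - r₁ ^ 2) / r₁ ^ 2 := by
  intro x₀ hx₀
  set κ := L / r₁ ^ 2 with hκ
  have hκ0 : 0 < κ := by positivity
  obtain ⟨x, hx, hm⟩ := hc.exists_isMaxOn ⟨x₀, hx₀⟩ (f := fun y => u (y, t) - κ * sq (y, t))
    ((contOn (fun _ h => h.1) fun y hy => (hu y hy).continuousWithinAt).sub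
      (continuous_const.mul (cd_sq.continuous.comp (by fun_prop))).continuousOn)
  have i1 : ‖x‖ = r₁ := by
    by_contra hne
    have i2 : r₁ < ‖x‖ := hx.2.1.lt_of_ne (Ne.symm hne)
    obtain ⟨k1, k2⟩ := hn x hx
    have k3 := sq_le_sq' (neg_le_of_abs_le k1) (le_of_abs_le k1)
    have k0 : 0 ≤ K := (abs_nonneg _).trans k1
    have k4 : 4 * K ^ 2 ≤ r₁ ^ 2 := by nlinarith
    have k5 : r₁ ^ 2 < ‖x‖ ^ 2 := by nlinarith
    have hs : ContDiffWithinAt ℝ 1 (fun q => κ * sq q) F.M (x, t) :=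
      (contDiff_const.mul (cd_sq.of_le (by norm_cast))).contDiffAt.contDiffWithinAt
    have m := max_drift hF hx.1 (u := fun q => u q - κ * sq q) ((hu x hx).sub hs)
      (by simp only; nlinarith)
      ((locMax (u := fun q => u q - κ * sq q) i2 fun y hy => hm hy).on_subset
        fun q hq => ⟨hq.1, le_trans hq.2 hx.2.2⟩)
    have e1 : ∀ i, F.D i (fun q => u q - κ * sq q) (x, t) =
        F.D i u (x, t) - κ * F.D i sq (x, t) := fun i => by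
      rw [← hF.D_const_mul hx.1 κ cd_sq.contDiffOn i]
      have := (((hu x hx).differentiableWithinAt (by simp)).hasFDerivWithinAt.sub
        (hs.differentiableWithinAt (by simp)).hasFDerivWithinAt)
      exact hF.td_eq hx.1 this (hF.tg_PL hx.1 _)
    have e2 := drift_sq hF hx.1
    have e3 : κ * r₁ ^ 2 = L := div_mul_cancel₀ _ (by positivity)
    simp only [e1, Fin.sum_univ_three] at m e2 k2
    nlinarith
  have h1 := hm hx₀
  have h2 := h0 x hx.1 i1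
  have h3 : ‖x₀‖ ^ 2 ≤ r₂ ^ 2 := by nlinarith [hx₀.2.2, norm_nonneg x₀]
  simp only [mem_ofPred_eq, sq, i1] at h1
  rw [mul_div_right_comm, ← hκ]
  nlinarith

end Crest.Agent.N250.Bar

end
end

-- ▼ part N250/R/Step

/-!
# Row 250 (helper59): the geometric induction step of the static inequality

A surface that stays in the tube of a model on `B_s`, is very close to it on a fixed sphere and is
an almost shrinker on `B_{s+1}` stays in the tube on `B_{s+1}`.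
-/

set_option autoImplicit false
open MeasureTheory Set Filter Topology Metric
open scoped ContDiff InnerProductSpace
open Crest.GeometryTopology.MCF

noncomputable section

namespace Crest.Agent.N250.Sp

open Tb Bar

variable {F : Mv} {p : ST} {ρ : ℝ}

theorem A2_le (hF : F.Reg) (hp : p ∈ F.M) (hρ : 0 < ρ) (h : F.Reach p ρ) :
    F.A2 p ≤ (2 / ρ) ^ 2 := by
  refine (reachAS_holds F hF p hp ρ hρ h).2.trans ?_
  rw [div_pow]
  exact div_le_div_of_nonneg_right (by norm_num) (by positivity)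

theorem abs_H_le (hF : F.Reg) (hp : p ∈ F.M) (hρ : 0 < ρ) (h : F.Reach p ρ) :
    |F.H p| ≤ 2 / ρ := by
  refine abs_le_of_sq_le_sq' ?_ (by positivity) |> abs_le.2
  have h1 := (reachAS_holds F hF p hp ρ hρ h).2
  have h2 := H_sq_le hF hp
  have e : (2 / ρ) ^ 2 = 2 * (2 / ρ ^ 2) := by ring
  linarith

theorem abs_xn_le (hF : F.Reg) (hp : p ∈ F.M) (hρ : 0 < ρ) (h : F.Reach p ρ)
    (he : |F.shr p| ≤ 1) : |F.xn 0 p| ≤ 4 / ρ + 2 := by
  have h1 := abs_le.1 (abs_H_le hF hp hρ h)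
  have h2 := abs_le.1 he
  have e : 4 / ρ = 2 * (2 / ρ) := by ring
  rw [Mv.shr] at h2
  exact abs_le.2 ⟨by linarith [h1.1, h2.2], by linarith [h1.2, h2.1]⟩

theorem closed_sl (hc : IsClosed F.M) (t : ℝ) : IsClosed (F.sl t) :=
  hc.preimage (f := fun x : E => ((x, t) : ST)) (by fun_prop)

theorem cpt_An (hc : IsClosed F.M) (t r₁ r₂ : ℝ) : IsCompact (An F t r₁ r₂) := by
  refine (isCompact_closedBall (0 : E) r₂).of_isClosed_subset ?_ fun x hx =>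
    mem_closedBall_zero_iff.2 hx.2.2
  exact (closed_sl hc t).inter ((isClosed_le continuous_const continuous_norm).inter
    (isClosed_le continuous_norm continuous_const))

/-- a truncation of `d²` -/
theorem exists_trunc {δ : ℝ} (hδ : 0 < δ) (hρ : δ ≤ ρ / 4) : ∃ (ψ : ℝ → ℝ) (B : ℝ), 0 < B ∧
    ContDiff ℝ 1 ψ ∧ (∀ d, |d| ≤ δ → ψ d = d ^ 2) ∧ (∀ d, ρ / 2 ≤ |d| → ψ d = δ ^ 2) ∧
    (∀ d, ψ d < δ ^ 2 → |d| ≤ δ) ∧ ∀ d, |d| ≤ ρ → |deriv ψ d| ≤ B := by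
  let β : ContDiffBump (0 : ℝ) := ⟨δ, ρ / 2, hδ, by linarith⟩
  have hc : ContDiff ℝ 1 fun d : ℝ => δ ^ 2 + β d * (d ^ 2 - δ ^ 2) :=
    contDiff_const.add (β.contDiff.mul ((contDiff_id.pow 2).sub contDiff_const))
  obtain ⟨B, hB⟩ := (isCompact_closedBall (0 : ℝ) ρ).exists_bound_of_continuousOn
    (hc.continuous_deriv le_rfl).continuousOn
  refine ⟨_, |B| + 1, by positivity, hc, fun d hd => ?_, fun d hd => ?_, fun d hd => ?_,
    fun d hd => ?_⟩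
  · rw [β.one_of_mem_closedBall (by simpa using hd)]; ring
  · rw [β.zero_of_le_dist (by simpa using hd)]; ring
  · by_contra hcon
    have h1 : δ ^ 2 ≤ d ^ 2 := by
      rw [← sq_abs d]; exact pow_le_pow_left₀ hδ.le (not_le.1 hcon).le 2
    have := mul_nonneg (β.nonneg (x := d)) (sub_nonneg.2 h1)
    linarith
  · have := hB d (by simpa using hd)
    rw [Real.norm_eq_abs] at this
    linarith [le_abs_self B]

/-- first order extension of the tubular closeness across an annulus -/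
theorem ext {ρ₀ δ K : ℝ} (h1 : ρ₀ ≤ 1) (hδ : 0 < δ) (hδ' : δ ≤ ρ₀ / 4) (hK : 0 ≤ K) :
    ∃ L, 0 < L ∧ ∀ (G N : Mv) (t t' P r₁ r₂ a : ℝ), G.Reg →
      (∀ y ∈ G.sl t, y ∈ ball (0 : E) P → G.Reach (y, t) ρ₀) →
      (∀ y ∈ closure (G.sl t), y ∈ ball (0 : E) P → y ∈ G.sl t) → N.Reg → IsClosed N.M →
      0 < r₁ → 2 * K ≤ r₁ → r₂ + 1 ≤ P → (∀ x ∈ An N t' r₁ r₂, |N.xn 0 (x, t')| ≤ K) →
      (∀ y ∈ G.sl t, r₁ - 1 ≤ ‖y‖ → ‖y‖ < P → |G.xn 0 (y, t)| ≤ K) →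
      (∀ x ∈ N.sl t', ‖x‖ = r₁ → x ∈ tube G t (ball 0 P) ρ₀ ∧ |sd G t x| ≤ a) → a ≤ δ →
      a ^ 2 + L * (r₂ ^ 2 - r₁ ^ 2) / r₁ ^ 2 < δ ^ 2 →
      ∀ x ∈ An N t' r₁ r₂, x ∈ tube G t (ball 0 P) ρ₀ ∧ |sd G t x| ≤ δ := by
  classical
  obtain ⟨ψ, B, hB, c1, c2, c3, c4, c5⟩ := exists_trunc hδ hδ'
  refine ⟨B * (2 * K + 1), by positivity, ?_⟩
  intro G N t t' P r₁ r₂ a hG hR hC hN hc hr hr' hP hn hn' h0 ha hs
  have hT := tub hG hR isOpen_ball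
  obtain ⟨u, hu⟩ : ∃ u : ST → ℝ, u = fun q =>
    if q.1 ∈ tube G t (ball 0 P) ρ₀ then ψ (ht (sd G t) q) else δ ^ 2 := ⟨_, rfl⟩
  have u1 : ∀ q : ST, q.1 ∈ tube G t (ball 0 P) ρ₀ →
      u =ᶠ[𝓝 q] fun q => ψ (ht (sd G t) q) := fun q hq =>
    (hT.evW hq).mono fun q' h' => by rw [hu]; exact if_pos h'
  have u2 : ∀ q : ST, ‖q.1‖ ≤ r₂ → q.1 ∉ tube G t (ball 0 P) ρ₀ →
      u =ᶠ[𝓝 q] fun _ => δ ^ 2 := fun q hq hq' => by
    have far : ∀ z ∈ G.sl t, ρ₀ ≤ dist q.1 z := fun z hz => by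
      by_contra hcon
      refine hq' (mem_tube hG hC hz (not_le.1 hcon) fun w hw => ?_)
      rw [mem_ball_zero_iff]
      have := norm_le_norm_add_const_of_dist_le (mem_closedBall.1 hw)
      linarith [not_le.1 hcon]
    have : ∀ᶠ q' : ST in 𝓝 q, q'.1 ∈ ball q.1 (ρ₀ / 2) :=
      continuous_fst.continuousAt.eventually (ball_mem_nhds _ (by linarith))
    refine this.mono fun q' h' => ?_
    rw [hu]
    by_cases hm : q'.1 ∈ tube G t (ball 0 P) ρ₀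
    · simp only [if_pos hm]
      refine c3 _ ?_
      have e1 := dist_pr hG hR hm
      have e2 := far _ (pr_mem hG hR hm)
      have e3 := dist_triangle q.1 q'.1 (pr G t q'.1)
      have e4 : dist q.1 q'.1 < ρ₀ / 2 := mem_ball'.1 h'
      rw [ht]; linarith
    · simp only [if_neg hm]
  have key := s6 (u := u) (K := K) (L := B * (2 * K + 1)) (a := a ^ 2) hN (by positivity) hr' hr
    (cpt_An hc t' r₁ r₂) (fun x hx => ?_) (fun x hx => ⟨hn x hx, ?_⟩) fun x hx hx' => ?_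
  · intro x hx
    have h2 := (key x hx).trans_lt hs
    rw [hu] at h2
    by_cases hm : x ∈ tube G t (ball 0 P) ρ₀
    · simp only [if_pos hm] at h2
      exact ⟨hm, c4 _ h2⟩
    · simp only [if_neg hm] at h2
      exact absurd h2 (lt_irrefl _)
  · by_cases hm : x ∈ tube G t (ball 0 P) ρ₀
    · exact ((c1.contDiffAt.comp (x, t') ((hT.ht_at (p := (x, t')) hm).of_le
        (by simp))).congr_of_eventuallyEq (u1 _ hm)).contDiffWithinAt
    · exact (contDiffAt_const.congr_of_eventuallyEq (u2 (x, t') hx.2.2 hm)).contDiffWithinAt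
  · have hp : ((x, t') : ST) ∈ N.M := hx.1
    by_cases hm : x ∈ tube G t (ball 0 P) ρ₀
    · have e : ∀ i, N.D i u (x, t') = deriv ψ (sd G t x) * N.D i (ht (sd G t)) (x, t') := fun i => by
        rw [Mv.D_congr hp ((u1 (x, t') hm).filter_mono nhdsWithin_le_nhds)]
        exact hT.td_psi hG hN hp hm (c1.differentiable (by simp) _).hasDerivAt (hN.tg_PL hp _)
      have e2 : ∑ i, x i * N.D i u (x, t') =
          deriv ψ (sd G t x) * xD N (ht (sd G t)) (x, t') := by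
        rw [xD, Finset.mul_sum]
        exact Finset.sum_congr rfl fun i _ => by rw [e]; ring
      have b1 := abs_sd_lt hG hR hm
      have b2 : |G.xn 0 (pr G t x, t)| ≤ K := by
        refine hn' _ (pr_mem hG hR hm) ?_ (mem_ball_zero_iff.1 (pr_memU hG hR hm))
        have := norm_le_norm_add_const_of_dist_le (dist_pr hG hR hm).le
        linarith [hx.2.1]
      have b3 : |cs G t (pr G t) N (x, t') * N.xn 0 (x, t')| ≤ K := by
        rw [abs_mul]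
        have := (sq_le_one_iff_abs_le_one _).1 (hT.cs_sq_le hG hN hp hm)
        exact (mul_le_of_le_one_left (abs_nonneg _) this).trans (hn x hx)
      have b4 : |xD N (ht (sd G t)) (x, t')| ≤ 2 * K + 1 := by
        rw [hT.xD_ht hG hN hp hm]
        have := abs_sub (G.xn 0 (pr G t x, t) + sd G t x)
          (cs G t (pr G t) N (x, t') * N.xn 0 (x, t'))
        have := abs_add_le (G.xn 0 (pr G t x, t)) (sd G t x)
        simp only [ht]; linarith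
      rw [e2]
      refine (le_abs_self _).trans ?_
      rw [abs_mul]
      exact mul_le_mul (c5 _ b1.le) b4 (abs_nonneg _) hB.le
    · have e : ∀ i, N.D i u (x, t') = 0 := fun i => by
        rw [Mv.D_congr hp ((u2 (x, t') hx.2.2 hm).filter_mono nhdsWithin_le_nhds)]
        exact hN.D_const hp _ _
      simp only [e, mul_zero, Finset.sum_const_zero]
      positivity
  · obtain ⟨hm, h2⟩ := h0 x hx hx'
    rw [hu]
    simp only [if_pos hm, ht]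
    rw [c2 _ (h2.trans ha), ← sq_abs]
    exact pow_le_pow_left₀ (abs_nonneg _) h2 2

/-- the height equation as a differential inequality -/
theorem ht_ineq {G N : Mv} {t ρ₀ e : ℝ} {U : Set E} (hG : G.Reg) (hU : IsOpen U)
    (hR : ∀ y ∈ G.sl t, y ∈ U → G.Reach (y, t) ρ₀) (h0 : 0 < ρ₀) (hN : N.Reg) (hp : p ∈ N.M)
    (hm : p.1 ∈ tube G t U ρ₀) (hd : |sd G t p.1| ≤ ρ₀ / 4) (h1 : |N.shr p| ≤ e)
    (h2 : |G.shr (pr G t p.1, t)| ≤ e) :
    |N.lap (ht (sd G t)) p - (∑ i, p.1 i * N.D i (ht (sd G t)) p) / 2| ≤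
      (4 * (2 / ρ₀) ^ 2 + 1 / 2) * |ht (sd G t) p| +
        4 / ρ₀ * √(N.gam (ht (sd G t)) (ht (sd G t)) p) + 2 * e := by
  have hT := tub hG hR hU
  have hκ : 0 < 2 / ρ₀ := by positivity
  have a1 := A2_le hG (hT.mem _ hm) h0 (pr_reach hG hR hm)
  have a2 : |ht (sd G t) p| * (2 / ρ₀) ≤ 1 / 2 := by
    rw [ht, ← le_div_iff₀ hκ]
    refine hd.trans (le_of_eq ?_); field_simp; norm_num
  have k := hT.key hG hN hp hm hκ.le a1 a2
  have g1 := hT.gam_ht_le hG hN hp hm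
  have g0 : 0 ≤ N.gam (ht (sd G t)) (ht (sd G t)) p := by
    rw [Mv.gam_apply]; exact Finset.sum_nonneg fun _ _ => mul_self_nonneg _
  have g2 : N.gam (ht (sd G t)) (ht (sd G t)) p ≤ √(N.gam (ht (sd G t)) (ht (sd G t)) p) := by
    refine Real.le_sqrt_of_sq_le ?_; nlinarith
  have b3 : |N.shr p * cs G t (pr G t) N p| ≤ e := by
    rw [abs_mul]
    have := (sq_le_one_iff_abs_le_one _).1 (hT.cs_sq_le hG hN hp hm)
    exact (mul_le_of_le_one_right (abs_nonneg _) this).trans h1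
  have a0 := A2_nonneg G (pr G t p.1, t)
  have b4 : |(G.A2 (pr G t p.1, t) + 1 / 2) * ht (sd G t) p| ≤
      ((2 / ρ₀) ^ 2 + 1 / 2) * |ht (sd G t) p| := by
    rw [abs_mul, abs_of_nonneg (by linarith)]
    exact mul_le_mul_of_nonneg_right (by linarith) (abs_nonneg _)
  have b5 : 6 * (2 / ρ₀) ^ 3 * ht (sd G t) p ^ 2 ≤ 3 * (2 / ρ₀) ^ 2 * |ht (sd G t) p| := by
    rw [← sq_abs]
    have : 0 ≤ 6 * (2 / ρ₀) ^ 2 * |ht (sd G t) p| := by positivity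
    nlinarith [mul_le_mul_of_nonneg_left a2 this]
  have b6 := mul_le_mul_of_nonneg_left g2 (by positivity : 0 ≤ 2 * (2 / ρ₀))
  have e4 : 4 / ρ₀ = 2 * (2 / ρ₀) := by ring
  rw [e4]
  change |N.lap (ht (sd G t)) p - xD N (ht (sd G t)) p / 2| ≤ _
  have k1 := abs_le.1 k
  have k2 := abs_le.1 h2
  have k3 := abs_le.1 b3
  have k4 := abs_le.1 b4
  exact abs_le.2 ⟨by linarith [k1.1, k2.1, k3.2, k4.2], by linarith [k1.2, k2.2, k3.1, k4.1]⟩

/-- the barrier estimate for the signed distance -/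
theorem barr {ρ₀ c γ : ℝ} (h0 : 0 < ρ₀) (h1 : ρ₀ ≤ 1) (hc : 0 < c) (hγ : 0 < γ) (hγ' : γ ≤ 1 / 5) :
    ∃ R₁, 0 < R₁ ∧ ∀ (G N : Mv) (t t' R₀ r a b e : ℝ) (U : Set E), G.Reg → IsOpen U →
      (∀ y ∈ G.sl t, y ∈ U → G.Reach (y, t) ρ₀) → N.Reg → IsClosed N.M → R₁ ≤ R₀ → 0 ≤ a →
      0 ≤ b → b ≤ ρ₀ / 4 → 0 ≤ e → e ≤ 1 →
      (∀ x ∈ An N t' R₀ r, N.Reach (x, t') c ∧ |N.shr (x, t')| ≤ e ∧ x ∈ tube G t U ρ₀ ∧
        |sd G t x| ≤ b) →
      (∀ y ∈ G.sl t, y ∈ U → R₀ - 1 ≤ ‖y‖ → |G.shr (y, t)| ≤ e) →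
      (∀ x ∈ N.sl t', ‖x‖ = R₀ → |sd G t x| ≤ a) → R₀ ≤ r →
      ∀ x ∈ An N t' R₀ r, |sd G t x| ≤
        (a + 2 * e) * Real.exp (γ * ‖x‖ ^ 2) + b * Real.exp ((‖x‖ ^ 2 - r ^ 2) / 5) := by
  obtain ⟨R₁, hR₁, H⟩ := s5 (K := 4 * (2 / ρ₀) ^ 2 + 1 / 2 + 4 / ρ₀ + (4 / c + 2))
    (by positivity) hγ hγ'
  refine ⟨R₁, hR₁, ?_⟩
  intro G N t t' R₀ r a b e U hG hU hR hN hcl hR₀ ha hb hb' he he' hA hs hin hr
  have hT := tub hG hR hU
  refine H N t' R₀ r a b (2 * e) (ht (sd G t)) hN hR₀ ha hb (by positivity) (cpt_An hcl t' _ _)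
    (fun x hx => ((hT.ht_at (p := (x, t')) (hA x hx).2.2.1).of_le
      (WithTop.coe_le_coe.2 le_top)).contDiffWithinAt)
    (fun x hx i1 i2 => ?_) hin fun x hx hx' => (hA x ⟨hx, hx' ▸ hr, hx'.le⟩).2.2.2
  obtain ⟨k1, k2, k3, k4⟩ := hA x ⟨hx, i1.le, i2.le⟩
  have p1 : 0 ≤ 4 * (2 / ρ₀) ^ 2 := by positivity
  have p2 : 0 ≤ 4 / ρ₀ := by positivity
  have p3 : 0 ≤ 2 / c := by positivity
  have p4 : 4 / c = 2 * (2 / c) := by ring
  refine ⟨(abs_H_le hN hx hc k1).trans (by linarith),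
    (abs_xn_le hN hx hc k1 (k2.trans he')).trans (by linarith), ?_⟩
  refine (ht_ineq (p := (x, t')) hG hU hR h0 hN hx k3 (k4.trans hb') k2
    (hs _ (pr_mem hG hR k3) (pr_memU hG hR k3) ?_)).trans ?_
  · have := norm_le_norm_add_const_of_dist_le (dist_pr hG hR k3).le
    have := abs_sd_lt hG hR k3
    linarith
  · have q1 := abs_nonneg (ht (sd G t) (x, t'))
    have q2 := Real.sqrt_nonneg (N.gam (ht (sd G t)) (ht (sd G t)) (x, t'))
    gcongr <;> linarith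

/-- **the geometric step** `P(s) ⟹ P(s + 1)` -/
theorem step {ρ₀ c δ γ : ℝ} (h0 : 0 < ρ₀) (h1 : ρ₀ ≤ 1) (hc : 0 < c) (hδ : 0 < δ)
    (hδ' : δ ≤ ρ₀ / 4) (hγ : 0 < γ) (hγ' : γ ≤ 1 / 5) : ∃ R₁, 0 < R₁ ∧ ∀ R₀, R₁ ≤ R₀ →
    ∃ s₁, 0 < s₁ ∧ ∀ (G N : Mv) (ρ s a e : ℝ), G.Reg → G.Proper (ball 0 (ρ + 3) ×ˢ univ) →
      (∀ y ∈ G.sl 0, ‖y‖ < ρ + 3 → G.Reach (y, 0) ρ₀) → N.Reg → IsClosed N.M → s₁ ≤ s →
      s ≤ ρ + 1 → (∀ x ∈ N.sl 0, ‖x‖ < s + 1 → N.Reach (x, 0) c ∧ |N.shr (x, 0)| ≤ e) →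
      (∀ y ∈ G.sl 0, R₀ - 1 ≤ ‖y‖ → ‖y‖ < ρ + 3 → |G.shr (y, 0)| ≤ e) → 0 ≤ a → 0 ≤ e → e ≤ 1 →
      (∀ x ∈ N.sl 0, ‖x‖ < s → x ∈ tube G 0 (ball 0 (ρ + 3)) ρ₀ ∧ |sd G 0 x| ≤ δ) →
      (∀ x ∈ N.sl 0, ‖x‖ = R₀ → |sd G 0 x| ≤ a) → (a + 2 * e) * Real.exp (γ * s ^ 2) ≤ δ / 4 →
      ∀ x ∈ N.sl 0, ‖x‖ < s + 1 → x ∈ tube G 0 (ball 0 (ρ + 3)) ρ₀ ∧ |sd G 0 x| ≤ δ := by
  obtain ⟨R₁, hR₁, H⟩ := barr h0 h1 hc hγ hγ'
  obtain ⟨K, hK⟩ : ∃ K, K = 4 / c + 2 + (4 / ρ₀ + 2) := ⟨_, rfl⟩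
  have p2 : 0 ≤ 4 / ρ₀ := by positivity
  have p3 : 0 ≤ 4 / c := by positivity
  have hK0 : 0 ≤ K := by rw [hK]; positivity
  obtain ⟨L, hL, H'⟩ := ext h1 hδ hδ' hK0
  refine ⟨R₁, hR₁, fun R₀ hR₀ => ⟨R₀ + 2 * K + 20 + 48 * L / δ ^ 2, by
    have := hR₁.trans_le hR₀
    positivity, ?_⟩⟩
  intro G N ρ s a e hG hP hR hN hcl hs hs' hB hsh ha he he' hT hin hsm x hx hx'
  have hR' : ∀ y ∈ G.sl 0, y ∈ ball (0 : E) (ρ + 3) → G.Reach (y, 0) ρ₀ := fun y hy h =>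
    hR y hy (mem_ball_zero_iff.1 h)
  have q0 : 0 ≤ 48 * L / δ ^ 2 := by positivity
  have q1 := hR₁.trans_le hR₀
  by_cases hlt : ‖x‖ < s
  · exact hT x hx hlt
  have b1 := H G N 0 0 R₀ (s - 1) a δ e (ball 0 (ρ + 3)) hG isOpen_ball hR' hN hcl hR₀ ha hδ.le hδ'
    he he' (fun y hy => ⟨(hB y hy.1 (by linarith [hy.2.2])).1, (hB y hy.1 (by linarith [hy.2.2])).2,
      hT y hy.1 (by linarith [hy.2.2])⟩) (fun y hy h h' => hsh y hy h' (mem_ball_zero_iff.1 h)) hin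
    (by linarith)
  refine H' G N 0 0 (ρ + 3) (s - 2) ‖x‖ (δ / 2) hG hR'
    (cl_of_proper hP fun y hy => ⟨hy, mem_univ _⟩) hN hcl (by linarith) (by linarith) (by linarith)
    (fun y hy => ?_) (fun y hy h h' => ?_) (fun y hy hy' => ⟨(hT y hy (by linarith)).1, ?_⟩)
    (by linarith) ?_ x ⟨hx, by linarith [not_lt.1 hlt], le_rfl⟩
  · obtain ⟨k1, k2⟩ := hB y hy.1 (hy.2.2.trans_lt hx')
    exact (abs_xn_le hN hy.1 hc k1 (k2.trans he')).trans (by linarith)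
  · exact (abs_xn_le hG hy h0 (hR y hy h') ((hsh y hy (by linarith) h').trans he')).trans
      (by linarith)
  · refine (b1 y ⟨hy, by linarith, by linarith⟩).trans ?_
    rw [hy']
    have e1 : Real.exp (γ * (s - 2) ^ 2) ≤ Real.exp (γ * s ^ 2) :=
      Real.exp_le_exp.2 (mul_le_mul_of_nonneg_left (by nlinarith) hγ.le)
    have e2 : Real.exp (((s - 2) ^ 2 - (s - 1) ^ 2) / 5) ≤ 1 / 4 := by
      have : Real.exp (((s - 2) ^ 2 - (s - 1) ^ 2) / 5) ≤ Real.exp (-3) :=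
        Real.exp_le_exp.2 (by nlinarith)
      refine this.trans ?_
      rw [Real.exp_neg, one_div]
      exact inv_anti₀ (by norm_num) (by linarith [Real.add_one_le_exp (3 : ℝ)])
    have e3 := mul_le_mul_of_nonneg_left e1 (by positivity : 0 ≤ a + 2 * e)
    have e4 := mul_le_mul_of_nonneg_left e2 hδ.le
    linarith
  · have s0 : 20 ≤ s := by linarith
    have e1 : ‖x‖ ^ 2 - (s - 2) ^ 2 ≤ 6 * s := by nlinarith [norm_nonneg x]
    have e2 : 48 * L ≤ s * δ ^ 2 := by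
      rw [← div_le_iff₀ (by positivity)]; linarith
    have e3 : L * (‖x‖ ^ 2 - (s - 2) ^ 2) / (s - 2) ^ 2 ≤ δ ^ 2 / 2 := by
      rw [div_le_iff₀ (by nlinarith)]
      have e4 : s ^ 2 / 4 ≤ (s - 2) ^ 2 := by nlinarith
      have e5 := mul_le_mul_of_nonneg_left e1 hL.le
      have e6 := mul_le_mul_of_nonneg_left e4 (by positivity : 0 ≤ δ ^ 2 / 2)
      have e7 := mul_le_mul_of_nonneg_left e2 (by positivity : 0 ≤ s / 8)
      nlinarith
    nlinarith [sq_pos_of_pos hδ]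

end Crest.Agent.N250.Sp

end
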